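import Crest.Agent.X212.Glue52.More
import Crest.Agent.X212.Ext52.Top

-- ▼ part X212/Ext52/Lift
section

/-!
# X212 / Ext52 (helper52): two lifting lemmas

* `exists_section` : a smooth idempotent field on a normed space has a smooth section without zeros on a ball;
* `exists_deg`     : a circle valued map on `Circle × Circle × ℝ` that lifts on one second circle is
  `u ^ n * exp h`.
-/

set_option autoImplicit false
set_option linter.unusedSectionVars false

open Set Filter Topology Function Metric Real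
open scoped ContDiff Manifold

noncomputable section

namespace Crest.Agent.X212.Ext52

theorem exists_section {E F : Type*} [NormedAddCommGroup E] [NormedSpace ℝ E] [ProperSpace E]
    [NormedAddCommGroup F] [NormedSpace ℝ F] {P : E → F →L[ℝ] F} (hP : ContDiff ℝ ∞ P)
    (idem : ∀ x w, P x (P x w) = P x w) {v : F} (hv : P 0 v ≠ 0) {R : ℝ} (hR : 0 < R) :
    ∃ s : E → F, ContDiff ℝ ∞ s ∧ ∀ x, ‖x‖ ≤ R → P x (s x) ≠ 0 := by
  obtain ⟨δ, hδ, h⟩ := Metric.uniformContinuousOn_iff.1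
    ((isCompact_closedBall (0 : E) R).uniformContinuousOn_of_continuous hP.continuous.continuousOn)
    1 one_pos
  obtain ⟨N, hN⟩ := exists_nat_gt (R / δ)
  have N0 : (0 : ℝ) < N := (div_pos hR hδ).trans hN
  have key : ∀ j : ℕ, j ≤ N → ∃ s : E → F, ContDiff ℝ ∞ s ∧
      ∀ x, ‖x‖ ≤ R → P (((j : ℝ) / N) • x) (s x) ≠ 0 := by
    intro j
    induction j with
    | zero => exact fun _ => ⟨fun _ => v, contDiff_const, fun x _ => by simpa using hv⟩
    | succ j ih =>
      intro hj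
      obtain ⟨s, hs, h0⟩ := ih (Nat.le_of_succ_le hj)
      refine ⟨fun x => P (((j : ℝ) / N) • x) (s x),
        (hP.comp (contDiff_id.const_smul _)).clm_apply hs, fun x hx e => ?_⟩
      set a := ((j : ℝ) / N) • x
      set b := (((j + 1 : ℕ) : ℝ) / N) • x
      have m : ∀ k : ℕ, k ≤ N → ((k : ℝ) / N) • x ∈ closedBall (0 : E) R := fun k hk => by
        rw [mem_closedBall_zero_iff, norm_smul, Real.norm_of_nonneg (by positivity)]
        exact (mul_le_of_le_one_left (norm_nonneg _)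
          ((div_le_one N0).2 (by exact_mod_cast hk))).trans hx
      have d : dist a b < δ := by
        rw [dist_comm, dist_eq_norm, ← sub_smul, norm_smul, ← sub_div, Nat.cast_succ, add_sub_cancel_left,
          Real.norm_of_nonneg (by positivity), one_div, inv_mul_lt_iff₀ N0]
        rw [div_lt_iff₀ hδ] at hN
        exact hx.trans_lt hN
      have h1 := h a (m j (Nat.le_of_succ_le hj)) b (m _ hj) d
      rw [dist_eq_norm] at h1
      have h2 := (P a - P b).le_opNorm (P a (s x))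
      rw [sub_apply, idem, e, sub_zero] at h2
      have h3 := norm_pos_iff.2 (h0 x hx)
      nlinarith
  obtain ⟨s, hs, h0⟩ := key N le_rfl
  exact ⟨s, hs, fun x hx => by simpa [div_self N0.ne'] using h0 x hx⟩

theorem exists_lift {A : Type*} [TopologicalSpace A] [SimplyConnectedSpace A]
    [LocallyPathConnectedSpace A] {g : A → Circle} (hg : Continuous g) :
    ∃ G : A → ℝ, Continuous G ∧ ∀ a, Circle.exp (G a) = g a := by
  obtain ⟨a₀⟩ : Nonempty A := inferInstance
  obtain ⟨G, ⟨-, h⟩, -⟩ := Circle.isCoveringMap_exp.existsUnique_continuousMap_lifts ⟨g, hg⟩ a₀ _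
    (Circle.exp_arg _)
  exact ⟨G, G.continuous, congrFun h⟩

/-- two lifts differ by a constant -/
theorem lift_sub {A : Type*} [TopologicalSpace A] [PreconnectedSpace A] {G H : A → ℝ}
    (hG : Continuous G) (hH : Continuous H) (h : ∀ a, Circle.exp (G a) = Circle.exp (H a)) (a b : A) :
    G a - H a = G b - H b :=
  Circle.isCoveringMap_exp.const_of_comp (g := fun a => G a - H a) (hG.sub hH)
    (fun a b => by rw [Circle.exp_sub, Circle.exp_sub, h, h, div_self', div_self']) a b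

theorem isOpenQuotientMap_exp : IsOpenQuotientMap Circle.exp :=
  ⟨Circle.exp_surjective, Circle.exp.continuous, Circle.isCoveringMap_exp.isOpenMap⟩

theorem exists_deg {g : Circle × Circle × ℝ → Circle} (hg : Continuous g) {u₀ : Circle} {r₀ : ℝ}
    {H : Circle → ℝ} (hH : Continuous H) (h0 : ∀ v, Circle.exp (H v) = g (u₀, v, r₀)) :
    ∃ (n : ℤ) (h : Circle × Circle × ℝ → ℝ), Continuous h ∧
      ∀ a, g a = a.1 ^ n * Circle.exp (h a) := by
  let q : ℝ × ℝ × ℝ → Circle × Circle × ℝ := Prod.map Circle.exp (Prod.map Circle.exp id)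
  have hq : IsOpenQuotientMap q :=
    isOpenQuotientMap_exp.prodMap (isOpenQuotientMap_exp.prodMap IsOpenQuotientMap.id)
  obtain ⟨G, hG, e⟩ := exists_lift (hg.comp hq.continuous)
  have sh : ∀ c : ℝ × ℝ × ℝ, (∀ a, q (a + c) = q a) → ∀ a b, G (a + c) - G a = G (b + c) - G b :=
    fun c hc => lift_sub (hG.comp (continuous_id.add continuous_const)) hG fun a => by
      simp only [e, comp_apply, hc]
  have q1 : ∀ a, q (a + (2 * π, 0, 0)) = q a := fun ⟨_, _, _⟩ => by simp [q]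
  have q2 : ∀ a, q (a + (0, 2 * π, 0)) = q a := fun ⟨_, _, _⟩ => by simp [q]
  obtain ⟨n, hn⟩ : ∃ n : ℤ, G (0 + (2 * π, 0, 0)) - G 0 = n * (2 * π) := by
    rw [← Circle.exp_eq_one, Circle.exp_sub, e, e, comp_apply, comp_apply, q1, div_self']
  have z2 : ∀ a, G (a + (0, 2 * π, 0)) = G a := fun a => by
    have h1 := lift_sub (G := fun s : ℝ => G (Complex.arg u₀, s, r₀)) (H := fun s => H (Circle.exp s))
      (hG.comp (continuous_const.prodMk (continuous_id.prodMk continuous_const)))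
      (hH.comp Circle.exp.continuous) (fun s => by simp [e, h0, q, Circle.exp_arg]) (2 * π) 0
    have h2 := sh _ q2 a (Complex.arg u₀, 0, r₀)
    simp only [Circle.exp_two_pi, Circle.exp_zero, Prod.mk_add_mk, add_zero, zero_add] at h1 h2
    linarith
  let K : ℝ × ℝ × ℝ → ℝ := fun a => G a - n * a.1
  have p1 : ∀ t r, Periodic (fun s => K (s, t, r)) (2 * π) := fun t r s => by
    have := sh _ q1 (s, t, r) 0
    simp only [Prod.mk_add_mk, add_zero] at this
    simp only [K]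
    linarith
  have p2 : ∀ s r, Periodic (fun t => K (s, t, r)) (2 * π) := fun s r t => by
    have := z2 (s, t, r)
    simp only [Prod.mk_add_mk, add_zero] at this
    simp only [K, this]
  let h : Circle × Circle × ℝ → ℝ := fun a => K (Complex.arg a.1, Complex.arg a.2.1, a.2.2)
  have hK : h ∘ q = K := by
    funext ⟨s, t, r⟩
    obtain ⟨k, hk⟩ := Circle.exp_eq_exp.1 (Circle.exp_arg (Circle.exp s))
    obtain ⟨l, hl⟩ := Circle.exp_eq_exp.1 (Circle.exp_arg (Circle.exp t))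
    show K (Complex.arg (Circle.exp s), Complex.arg (Circle.exp t), r) = _
    rw [hk, hl]
    exact ((p1 _ r).int_mul k s).trans ((p2 s r).int_mul l t)
  refine ⟨n, h, hq.continuous_comp_iff.1 (hK ▸ hG.sub (continuous_const.mul continuous_fst)), fun a => ?_⟩
  obtain ⟨b, rfl⟩ := hq.surjective a
  rw [show h (q b) = K b from congrFun hK b, show (q b).1 = Circle.exp b.1 from rfl, ← Circle.exp_intCast_mul,
    ← Circle.exp_add, add_sub_cancel]
  exact (e b).symm

end Crest.Agent.X212.Ext52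
end
end

-- ▼ part X212/Ext52/Seif

/-!
# X212 / Ext52 (helper52): the Seifert framing

Every smooth tube can be shrunk and reframed to a knot datum `KD` (`Tube.exists_KD`); the fillings
correspond by diffeomorphisms that are the identity on the exterior (`Tube.Rep`).
The angle function comes from a section of the pull-back of the tautological line under the collapse
map `S3 → ℂP¹` over a large ball in a stereographic chart centred on the knot.
-/

set_option autoImplicit false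
set_option linter.unusedSectionVars false
set_option linter.style.haveILetI false

open Set Filter Topology Function TopologicalSpace Metric
open scoped ContDiff Manifold ComplexConjugate
open Crest.GeometryTopology.DehnSurgery Crest.Agent.X212.Glue52

noncomputable section

namespace Crest.Agent.X212.Ext52

/-- the second homogeneous coordinate of the collapse map -/
def bet (ζ : ℂ) : ℝ := expNegInvGlue (1 - ‖ζ‖ ^ 2)

theorem contDiff_bet : ContDiff ℝ ∞ bet :=
  expNegInvGlue.contDiff.comp (contDiff_const.sub (contDiff_norm_sq ℝ))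

theorem bet_eq_zero {ζ : ℂ} (h : 1 ≤ ‖ζ‖) : bet ζ = 0 :=
  expNegInvGlue.zero_of_nonpos (by nlinarith)

theorem den_pos (ζ : ℂ) : 0 < ‖ζ‖ ^ 2 + bet ζ ^ 2 := by
  by_cases h : ζ = 0
  · have : 0 < bet ζ := expNegInvGlue.pos_of_pos (by simp [h])
    positivity
  · have := norm_pos_iff.2 h
    positivity

/-- the coefficient of the orthogonal projection onto the line through `(ζ, bet ζ)` -/
def lam (ζ : ℂ) (w : ℂ × ℂ) : ℂ := (‖ζ‖ ^ 2 + bet ζ ^ 2)⁻¹ • (conj ζ * w.1 + bet ζ • w.2)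

theorem contDiff_lam : ContDiff ℝ ∞ fun a : ℂ × ℂ × ℂ => lam a.1 a.2 :=
  ((((contDiff_norm_sq ℝ).add (contDiff_bet.pow 2)).inv fun ζ => (den_pos ζ).ne').comp
    contDiff_fst).smul (((Complex.conjCLE.contDiff.comp contDiff_fst).mul
      (contDiff_fst.comp contDiff_snd)).add ((contDiff_bet.comp contDiff_fst).smul
        (contDiff_snd.comp contDiff_snd)))

/-- the orthogonal projection onto the line through `(ζ, bet ζ)` -/
def PT (ζ : ℂ) : ℂ × ℂ →L[ℝ] ℂ × ℂ :=
  LinearMap.toContinuousLinearMap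
    { toFun := fun w => (lam ζ w * ζ, lam ζ w * bet ζ)
      map_add' := fun v w => by ext <;> simp [lam] <;> ring
      map_smul' := fun c w => by ext <;> simp [lam] <;> ring }

theorem PT_apply (ζ : ℂ) (w : ℂ × ℂ) : PT ζ w = (lam ζ w * ζ, lam ζ w * bet ζ) := rfl

theorem contDiff_PT : ContDiff ℝ ∞ PT := by
  refine contDiff_clm_apply_iff.2 fun w => ?_
  have h : ContDiff ℝ ∞ fun ζ => lam ζ w := contDiff_lam.comp (contDiff_id.prodMk contDiff_const)
  exact (h.mul contDiff_id).prodMk (h.mul (Complex.ofRealCLM.contDiff.comp contDiff_bet))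

theorem lam_line (ζ c : ℂ) : lam ζ (c * ζ, c * bet ζ) = c := by
  have h : ((‖ζ‖ ^ 2 + bet ζ ^ 2 : ℝ) : ℂ) ≠ 0 := by exact_mod_cast (den_pos ζ).ne'
  have e : conj ζ * (c * ζ) + (bet ζ : ℂ) * (c * bet ζ) = c * ((‖ζ‖ ^ 2 + bet ζ ^ 2 : ℝ) : ℂ) := by
    have := Complex.conj_mul' ζ
    push_cast
    linear_combination c * this
  simp only [lam, Complex.real_smul, e, Complex.ofReal_inv]
  field_simp

theorem PT_idem (ζ : ℂ) (w : ℂ × ℂ) : PT ζ (PT ζ w) = PT ζ w := by
  rw [PT_apply ζ w, PT_apply, lam_line]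

theorem PT_out {ζ : ℂ} (h : 1 ≤ ‖ζ‖) (w : ℂ × ℂ) : PT ζ w = (w.1, 0) := by
  have h0 : ζ ≠ 0 := norm_pos_iff.1 (one_pos.trans_le h)
  have e : lam ζ w = w.1 / ζ := by
    have := lam_line ζ (w.1 / ζ)
    rw [div_mul_cancel₀ _ h0] at this
    rw [← this]
    simp [lam, bet_eq_zero h]
  rw [PT_apply, e, div_mul_cancel₀ _ h0, bet_eq_zero h]
  simp

namespace Tube

variable (t : Tube)

section Patch

variable {E : Type*} [NormedAddCommGroup E] [NormedSpace ℝ E] {H : Type*} [TopologicalSpace H]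
  {J : ModelWithCorners ℝ E H} {Z : Type*} [TopologicalSpace Z] [ChartedSpace H Z]
  {F : Circle × ℂ → Z} {G : S3 → Z}

theorem patch_in {z : Circle × ℂ} (h : ContMDiffAt IT J ∞ F z) :
    ContMDiffAt (𝓡 3) J ∞ (extend t.τ F G) (t.τ z) :=
  contMDiffAt_of_comp (t.ld z) (by rwa [extend_comp t.inj])

theorem patch_out {r : ℝ} (h : ∀ z, r < ‖z.2‖ → F z = G (t.τ z)) {x : S3} (hx : x ∉ range t.τ)
    (hG : ContMDiffAt (𝓡 3) J ∞ G x) : ContMDiffAt (𝓡 3) J ∞ (extend t.τ F G) x := by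
  refine hG.congr_of_eventuallyEq ?_
  filter_upwards [(t.isCompact_tube r).isClosed.isOpen_compl.mem_nhds
    fun h => hx (image_subset_range _ _ h)] with y hy
  by_cases h' : ∃ z, t.τ z = y
  · obtain ⟨z, rfl⟩ := h'
    rw [t.inj.extend_apply]
    exact h z (not_le.1 fun hz => hy ⟨z, ⟨trivial, mem_closedBall_zero_iff.2 hz⟩, rfl⟩)
  · exact extend_apply' _ _ _ h'

end Patch

/-- the projector field of the collapse map -/
def PS : S3 → ℂ × ℂ →L[ℝ] ℂ × ℂ := extend t.τ (fun z => PT z.2) fun _ => PT 1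

theorem contMDiff_PS : ContMDiff (𝓡 3) 𝓘(ℝ, ℂ × ℂ →L[ℝ] ℂ × ℂ) ∞ t.PS := fun x => by
  by_cases h : x ∈ range t.τ
  · obtain ⟨z, rfl⟩ := h
    exact t.patch_in ((contDiff_PT.contMDiff _).comp z contMDiffAt_snd)
  · exact t.patch_out (r := 1) (fun z hz => ContinuousLinearMap.ext fun w => by
      rw [PT_out hz.le, PT_out norm_one.ge]) h contMDiffAt_const

theorem exists_PS (x : S3) : ∃ ζ, t.PS x = PT ζ := by
  by_cases h : ∃ z, t.τ z = x
  · obtain ⟨z, rfl⟩ := h
    exact ⟨z.2, t.inj.extend_apply _ _ _⟩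
  · exact ⟨1, extend_apply' _ _ _ h⟩

theorem exists_a : ∃ (a : S3 → ℂ) (l : Circle × ℂ → ℂ), (∀ z, a (t.τ z) = l z * z.2) ∧
    (∀ x ∉ range t.τ, ContMDiffAt (𝓡 3) 𝓘(ℝ, ℂ) ∞ a x ∧ a x ≠ 0) ∧
    ∀ z : Circle × ℂ, 1 / 4 ≤ ‖z.2‖ ∨ z.1 = -1 ∧ ‖z.2‖ ≤ 2 →
      ContMDiffAt IT 𝓘(ℝ, ℂ) ∞ l z ∧ l z ≠ 0 := by
  haveI : Fact (Module.finrank ℝ (EuclideanSpace ℝ (Fin 4)) = 3 + 1) := ⟨by simp⟩
  set e := chE (𝓡 3) (-t.τ (1, 0)) with he
  have es : e.source = {t.τ (1, 0)}ᶜ := by
    show (extChartAt (𝓡 3) (-t.τ (1, 0))).source = _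
    rw [extChartAt_source]
    exact (stereographic'_source (n := 3) _).trans (by rw [neg_neg])
  have et : e.target = univ := by
    show (extChartAt (𝓡 3) (-t.τ (1, 0))).target = _
    rw [extChartAt_target, show (chartAt E3 (-t.τ (1, 0))).target = univ from
      stereographic'_target (n := 3) _]
    simp
  let C : Set S3 := (t.τ '' (univ ×ˢ ball 0 (1 / 4)))ᶜ ∪ t.τ '' ({-1} ×ˢ closedBall 0 2)
  have Cc : IsCompact C :=
    (t.isOpenEmbedding.isOpenMap _ (isOpen_univ.prod isOpen_ball)).isClosed_compl.isCompact.union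
      ((isCompact_singleton.prod (isCompact_closedBall _ _)).image t.isOpenEmbedding.continuous)
  have Cs : C ⊆ e.source := by
    rw [es]
    rintro x (hx | ⟨z, hz, rfl⟩) e1
    · exact hx ⟨(1, 0), ⟨trivial, by simp⟩, e1.symm⟩
    · have h1 : (-1 : Circle) = 1 := hz.1.symm.trans (congrArg Prod.fst (t.inj e1))
      have h2 := congrArg (fun u : Circle => (u : ℂ).re) h1
      norm_num at h2
  obtain ⟨R, R0, hR⟩ := ((Cc.image_of_continuousOn
    (e.contMDiffOn_toFun.continuousOn.mono Cs)).isBounded).exists_pos_norm_le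
  have hP : ContDiff ℝ ∞ (t.PS ∘ e.symm) := contMDiff_iff_contDiff.1
    (t.contMDiff_PS.comp (contMDiffOn_univ.1 (et ▸ e.contMDiffOn_invFun)))
  obtain ⟨ζ₀, h₀⟩ := t.exists_PS (e.symm 0)
  obtain ⟨s, hs, h0⟩ := exists_section hP (fun x w => by
    obtain ⟨ζ, h⟩ := t.exists_PS (e.symm x)
    rw [comp_apply, h, PT_idem]) (v := (1 * ζ₀, 1 * bet ζ₀)) (by
      rw [comp_apply, h₀, PT_apply, lam_line]
      intro h
      have h1 : ζ₀ = 0 := by simpa using congrArg Prod.fst h
      have h2 : bet ζ₀ = 0 := by simpa using congrArg Prod.snd h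
      simpa [h1, h1 ▸ h2] using den_pos ζ₀) R0
  have h1 : ∀ x ∈ C, t.PS x (s (e x)) ≠ 0 := fun x hx => by
    have := h0 _ (hR _ ⟨x, hx, rfl⟩)
    rwa [comp_apply, show e.symm (e x) = x from e.left_inv (Cs hx)] at this
  have h2 : ∀ x ∈ C, ContMDiffAt (𝓡 3) 𝓘(ℝ, ℂ × ℂ) ∞ (fun y => s (e y)) x := fun x hx =>
    (hs.contMDiff _).comp x (e.contMDiffOn_toFun.contMDiffAt (e.open_source.mem_nhds (Cs hx)))
  have h3 : ∀ z w, t.PS (t.τ z) w = (lam z.2 w * z.2, lam z.2 w * bet z.2) := fun z w => by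
    rw [PS, t.inj.extend_apply, PT_apply]
  refine ⟨fun x => (t.PS x (s (e x))).1, fun z => lam z.2 (s (e (t.τ z))),
    fun z => congrArg Prod.fst (h3 z _),
    fun x hx => ?_, fun z hz => ?_⟩
  · have xC : x ∈ C := Or.inl fun h => hx (image_subset_range _ _ h)
    refine ⟨(contDiff_fst.contMDiff _).comp x ((t.contMDiff_PS x).clm_apply (h2 x xC)), fun h => h1 x xC ?_⟩
    have e1 : t.PS x = PT 1 := extend_apply' _ _ _ hx
    beta_reduce at h
    rw [e1, PT_out norm_one.ge] at h ⊢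
    exact Prod.ext h rfl
  · have xC : t.τ z ∈ C := by
      rcases hz with hz | hz
      · refine Or.inl ?_
        rintro ⟨w, hw, e1⟩
        rw [t.inj e1] at hw
        exact (mem_ball_zero_iff.1 hw.2).not_ge hz
      · exact Or.inr ⟨z, ⟨hz.1, mem_closedBall_zero_iff.2 hz.2⟩, rfl⟩
    refine ⟨(contDiff_lam.contMDiff _).comp z
      (contMDiffAt_snd.prodMk_space ((h2 _ xC).comp z (t.ld z).contMDiffAt)), fun h => h1 _ xC ?_⟩
    beta_reduce at h
    rw [h3, h, zero_mul, zero_mul]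
    rfl

end Tube

theorem dir_mul_dir {a b : ℂ} (ha : a ≠ 0) (hb : b ≠ 0) : dir (a * b) = dir a * dir b := by
  have h := dir_mul (mul_pos (norm_pos_iff.2 ha) (norm_pos_iff.2 hb)) (dir a * dir b)
  rwa [Complex.ofReal_mul, Circle.coe_mul, mul_mul_mul_comm, norm_mul_dir, norm_mul_dir] at h

namespace Tube

variable (t : Tube)

theorem exists_angle : ∃ (n : ℤ) (θ : S3 → Circle), (∀ x ∈ t.Ext, ContMDiffAt (𝓡 3) (𝓡 1) ∞ θ x) ∧
    ∀ z : Circle × ℂ, ‖z.2‖ < 1 → θ (t.τ z) = dir z.2 * z.1 ^ n := by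
  obtain ⟨a, l, al, ha, hl⟩ := t.exists_a
  let κ : Circle × Circle × ℝ → Circle × ℂ := fun b => (b.1, ((1 / 4 + Real.exp b.2.2 : ℝ) : ℂ) * b.2.1)
  have κc : Continuous κ := by fun_prop
  have κn : ∀ b, ‖(κ b).2‖ = 1 / 4 + Real.exp b.2.2 := fun b => by
    simp only [κ, norm_mul, Circle.norm_coe, mul_one, Complex.norm_real]
    exact Real.norm_of_nonneg (by positivity)
  have dl : ∀ z : Circle × ℂ, 1 / 4 ≤ ‖z.2‖ ∨ z.1 = -1 ∧ ‖z.2‖ ≤ 2 →
      ContMDiffAt IT (𝓡 1) ∞ (fun w => dir (l w)) z :=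
    fun z hz => (contMDiffAt_dir (hl z hz).2).comp z (hl z hz).1
  have gc : Continuous fun b => dir (l (κ b)) := continuous_iff_continuousAt.2 fun b =>
    (dl _ (Or.inl (by rw [κn]; linarith [Real.exp_pos b.2.2]))).continuousAt.comp κc.continuousAt
  haveI := (convex_closedBall (0 : ℂ) 2).contractibleSpace ⟨0, by simp⟩
  haveI := (convex_closedBall (0 : ℂ) 2).locallyPathConnectedSpace
  obtain ⟨D, Dc, hD⟩ := exists_lift (A := closedBall (0 : ℂ) 2) (g := fun ζ => dir (l (-1, ζ)))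
    (continuous_iff_continuousAt.2 fun ζ =>
      (dl (-1, ζ) (Or.inr ⟨rfl, mem_closedBall_zero_iff.1 ζ.2⟩)).continuousAt.comp
        (f := fun ζ : closedBall (0 : ℂ) 2 => ((-1 : Circle), (ζ : ℂ))) (by fun_prop))
  have κm : ∀ v : Circle, (κ (-1, v, 0)).2 ∈ closedBall (0 : ℂ) 2 := fun v => by
    rw [mem_closedBall_zero_iff, κn]; norm_num
  obtain ⟨n, h, hc, hh⟩ := exists_deg gc (u₀ := -1) (r₀ := 0) (H := fun v => D ⟨_, κm v⟩)
    (Dc.comp (Continuous.subtype_mk (by fun_prop) κm)) fun v => hD _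
  let k : Circle × ℂ → ℝ := fun z => h (z.1, dir z.2, Real.log (‖z.2‖ - 1 / 4))
  have hk : ∀ z : Circle × ℂ, 1 / 4 < ‖z.2‖ → dir (l z) = z.1 ^ n * Circle.exp (k z) := fun z hz => by
    rw [← hh (z.1, dir z.2, Real.log (‖z.2‖ - 1 / 4))]
    simp only [κ, Real.exp_log (sub_pos.2 hz), add_sub_cancel, norm_mul_dir]
  have ne : ∀ z : Circle × ℂ, 1 / 4 < ‖z.2‖ → z.2 ≠ 0 := fun z hz => norm_pos_iff.1 (by linarith)
  have nb : ∀ z : Circle × ℂ, ∀ r, r < ‖z.2‖ → ∀ᶠ w in 𝓝 z, r < ‖w.2‖ := fun z r hz =>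
    continuous_snd.norm.continuousAt.eventually (lt_mem_nhds hz)
  have pw : ∀ m : ℤ, ContMDiff IT (𝓡 1) ∞ fun w : Circle × ℂ => w.1 ^ m := fun m =>
    (contMDiff_zpow m).comp contMDiff_fst
  have ks : ∀ z : Circle × ℂ, 1 / 4 < ‖z.2‖ → ContMDiffAt IT 𝓘(ℝ, ℝ) ∞ k z := fun z hz => by
    refine contMDiffAt_of_comp_left (ld_circleExp _) (hc.continuousAt.comp (continuousAt_fst.prodMk
      (((contMDiffAt_dir (ne z hz)).continuousAt.comp continuousAt_snd).prodMk
        ((continuous_snd.norm.continuousAt.sub continuousAt_const).log (sub_pos.2 hz).ne'))))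
      (((dl z (Or.inl hz.le)).mul (pw (-n) z)).congr_of_eventuallyEq ?_)
    filter_upwards [nb z _ hz] with w hw
    simp [hk w hw, mul_right_comm]
  let F₂ : Circle × ℂ → Circle := fun z =>
    dir (l z) * dir z.2 * Circle.exp (-(Real.smoothTransition (3 - ‖z.2‖) * k z))
  have e12 : ∀ z : Circle × ℂ, 1 / 4 < ‖z.2‖ → ‖z.2‖ ≤ 2 → F₂ z = dir z.2 * z.1 ^ n := fun z h1 h2 => by
    simp only [F₂, hk z h1, Real.smoothTransition.one_of_one_le (show 1 ≤ 3 - ‖z.2‖ by linarith),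
      one_mul, Circle.exp_neg]
    rw [mul_right_comm, mul_inv_cancel_right, mul_comm]
  let F : Circle × ℂ → Circle := fun z => if ‖z.2‖ < 1 then dir z.2 * z.1 ^ n else F₂ z
  refine ⟨n, extend t.τ F (fun x => dir (a x)), fun x hx => ?_, fun z hz => ?_⟩
  · by_cases h' : x ∈ range t.τ
    · obtain ⟨z, rfl⟩ := h'
      have z0 := t.τ_mem_Ext.1 hx
      have dz : ContMDiffAt IT (𝓡 1) ∞ (fun w : Circle × ℂ => dir w.2) z :=
        (contMDiffAt_dir z0).comp z contMDiffAt_snd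
      refine t.patch_in ?_
      rcases lt_or_ge ‖z.2‖ 1 with h1 | h1
      · refine (dz.mul (pw n z)).congr_of_eventuallyEq ?_
        filter_upwards [continuous_snd.norm.continuousAt.eventually (gt_mem_nhds h1)] with w hw
        exact if_pos hw
      · have h2 : 1 / 4 < ‖z.2‖ := by linarith
        have nz : ContMDiffAt IT 𝓘(ℝ, ℝ) ∞ (fun w : Circle × ℂ => ‖w.2‖) z :=
          (contMDiffAt_iff_contDiffAt.2 (contDiffAt_norm_c z0)).comp z contMDiffAt_snd
        have s0 : ContMDiffAt IT 𝓘(ℝ, ℝ) ∞ (fun w : Circle × ℂ => 3 - ‖w.2‖) z :=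
          contMDiffAt_const.sub nz
        have s1 : ContMDiffAt IT 𝓘(ℝ, ℝ) ∞ (fun w : Circle × ℂ => Real.smoothTransition (3 - ‖w.2‖)) z :=
          ((Real.smoothTransition.contDiff (n := ⊤)).contMDiff _).comp z s0
        have s2 : ContMDiffAt IT (𝓡 1) ∞
            (fun w : Circle × ℂ => Circle.exp (-(Real.smoothTransition (3 - ‖w.2‖) * k w))) z :=
          (contMDiff_circleExp _).comp z (s1.mul (ks z h2)).neg
        have s3 : ContMDiffAt IT (𝓡 1) ∞ F₂ z := ((dl z (Or.inl h2.le)).mul dz).mul s2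
        refine s3.congr_of_eventuallyEq ?_
        filter_upwards [nb z _ h2] with w hw
        by_cases h3 : ‖w.2‖ < 1
        · exact (if_pos h3).trans (e12 w hw (by linarith)).symm
        · exact if_neg h3
    · refine t.patch_out (r := 3) (fun z hz => ?_) h' ((contMDiffAt_dir (ha x h').2).comp x (ha x h').1)
      have h2 : 1 / 4 < ‖z.2‖ := by linarith
      simp only [F, F₂, if_neg (show ¬‖z.2‖ < 1 by linarith), al,
        Real.smoothTransition.zero_of_nonpos (show 3 - ‖z.2‖ ≤ 0 by linarith), zero_mul, neg_zero,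
        Circle.exp_zero, mul_one, dir_mul_dir (hl z (Or.inl h2.le)).2 (ne z h2)]
  · rw [t.inj.extend_apply]
    exact if_pos hz

end Tube

/-! ### shrinking and reframing -/

/-- the radial diffeomorphism onto the open unit tube -/
def shr (z : Circle × ℂ) : Circle × ℂ := (z.1, OpenPartialHomeomorph.univUnitBall z.2)

theorem ld_shr : IsLocalDiffeomorph IT IT ∞ shr :=
  ld_prodMap (f := id) ld_id fun ζ => ⟨pdOf OpenPartialHomeomorph.univUnitBall
    OpenPartialHomeomorph.contDiff_univUnitBall.contMDiff.contMDiffOn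
    OpenPartialHomeomorph.contDiffOn_univUnitBall_symm.contMDiffOn, mem_univ ζ, fun _ _ => rfl⟩

theorem shr_injective : Injective shr := fun _ _ e =>
  Prod.ext (Prod.ext_iff.1 e).1 (OpenPartialHomeomorph.univUnitBall.injOn (mem_univ _) (mem_univ _)
    (Prod.ext_iff.1 e).2)

theorem norm_shr_lt (z : Circle × ℂ) : ‖(shr z).2‖ < 1 :=
  mem_ball_zero_iff.1 (OpenPartialHomeomorph.univUnitBall.map_source (mem_univ z.2))

theorem shr_snd (z : Circle × ℂ) : (shr z).2 = (((√(1 + ‖z.2‖ ^ 2))⁻¹ : ℝ) : ℂ) * z.2 := rfl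

theorem dir_real_mul {r : ℝ} (hr : 0 < r) {ζ : ℂ} (h : ζ ≠ 0) : dir (r * ζ) = dir ζ := by
  conv_lhs => rw [← norm_mul_dir ζ, ← mul_assoc, ← Complex.ofReal_mul]
  exact dir_mul (mul_pos hr (norm_pos_iff.2 h)) _

theorem shr_eq_zero (z : Circle × ℂ) : (shr z).2 = 0 ↔ z.2 = 0 := by
  rw [shr_snd, mul_eq_zero, or_iff_right]
  exact_mod_cast (by positivity : (√(1 + ‖z.2‖ ^ 2))⁻¹ ≠ 0)

theorem dir_shr {z : Circle × ℂ} (h : z.2 ≠ 0) : dir (shr z).2 = dir z.2 := dir_real_mul (by positivity) h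

theorem shr_mon (q b p a : ℤ) {z : Circle × ℂ} (h : z.2 ≠ 0) :
    shr (mon q b p a z) = mon q b p a (shr z) := by
  refine Prod.ext (by simp only [mon, dir_shr h]; rfl) ?_
  rw [shr_snd, norm_mon]
  simp only [mon, dir_shr h]
  rw [shr_snd, norm_mul, Complex.norm_real, Real.norm_of_nonneg (by positivity), Complex.ofReal_mul,
    mul_assoc]
  rfl

/-- the slope in the framing changed by `n` twists -/
def reframe (n : ℤ) (σ : FillingData) : FillingData :=
  ⟨σ.p + n * σ.q, σ.q, σ.a + n * σ.b, σ.b, by linear_combination σ.det⟩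

/-- SEIFERT FRAMING: every smooth tube is a knot datum after shrinking and reframing -/
theorem Tube.exists_KD (t : Tube) : ∃ (n : ℤ) (k : KD), k.thick.core = t.thick.core ∧
    (∀ z, k.τ z = t.τ (mon 0 1 1 (-n) (shr z))) ∧
    ∀ σ, ∃ R : Tube.Rep k.toTube t (reframe n σ) σ, R.ψ = shr := by
  obtain ⟨n, θ, hθ, h⟩ := t.exists_angle
  let D := coreD 1 1 (-n) (Or.inl rfl) (Or.inl rfl)
  let t' : Tube := ⟨t.τ ∘ D ∘ shr, ld_comp t.ld (ld_comp D.isLocalDiffeomorph ld_shr),
    t.inj.comp (D.injective.comp shr_injective)⟩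
  have c0 : ∀ u, t'.τ (u, 0) = t.τ (u, 0) := fun u => by simp [t', D, coreD_apply, mon, shr]
  have core : t'.thick.core = t.thick.core := by
    ext x
    constructor <;> rintro ⟨⟨u, ζ⟩, ⟨-, rfl⟩, rfl⟩
    exacts [⟨(u, 0), ⟨trivial, rfl⟩, (c0 u).symm⟩, ⟨(u, 0), ⟨trivial, rfl⟩, c0 u⟩]
  have ext : t'.Ext = t.Ext := Opens.ext (congrArg compl core)
  refine ⟨n, ⟨t', fun x => θ x, fun x => (hθ x (ext.le x.2)).comp x contMDiff_subtype_val.contMDiffAt,
    fun z => ?_⟩, core, fun _ => rfl, fun σ => ⟨⟨shr, ld_shr, shr_injective, shr_eq_zero,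
      fun u => ⟨(u, 0), by simp [shr]⟩, ext, fun z hz => ?_⟩, rfl⟩⟩
  · show θ (t.τ (mon 0 1 1 (-n) (shr z))) = _
    rw [h _ (by rw [norm_mon]; exact norm_shr_lt _), dir_mon _ _ _ _ (mt (shr_eq_zero _).1 z.2),
      dir_shr z.2]
    simp [mon]
  · show t.τ (mon 0 1 1 (-n) (shr _)) = _
    rw [shr_mon _ _ _ _ hz, mon_mon _ _ _ _ _ _ _ _ (mt (shr_eq_zero _).1 hz)]
    simp only [reframe]
    congr 2 <;> ring

theorem reframe_slope {n : ℤ} {σ σ' : FillingData}
    (h : ((reframe n σ).p = (reframe n σ').p ∧ (reframe n σ).q = (reframe n σ').q) ∨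
      ((reframe n σ).p = -(reframe n σ').p ∧ (reframe n σ).q = -(reframe n σ').q)) :
    (σ.p = σ'.p ∧ σ.q = σ'.q) ∨ (σ.p = -σ'.p ∧ σ.q = -σ'.q) := by
  simp only [reframe] at h
  rcases h with ⟨h1, h2⟩ | ⟨h1, h2⟩
  · exact Or.inl ⟨by rw [h2] at h1; linarith, h2⟩
  · exact Or.inr ⟨by rw [h2] at h1; linarith, h2⟩

end Crest.Agent.X212.Ext52
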